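import Vale.Agent.Lib.P012.helper17.StageDefs

namespace Vale.Agent.Lib.P012

private theorem two_mul_le_two_pow (u : ℕ) (hu : 1 ≤ u) : 2 * u ≤ 2 ^ u := by
  obtain ⟨v, rfl⟩ : ∃ v, u = v + 1 := ⟨u - 1, by omega⟩
  have h := Nat.lt_two_pow_self (n := v)
  rw [pow_succ]
  omega

theorem stage_room (ρ s : ℕ) (hρ : 16 ≤ ρ) (hs7 : 7 ≤ s) (hs : s + 1 ≤ ρ) :
    48 * ρ + 53 ≤ (ρ - s) * 2 ^ (s + 1) := by
  obtain ⟨d, rfl⟩ : ∃ d, ρ = s + d := ⟨ρ - s, by omega⟩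
  obtain ⟨u, rfl⟩ : ∃ u, s = u + 6 := ⟨s - 6, by omega⟩
  have hd : 1 ≤ d := by omega
  have hu : 1 ≤ u := by omega
  have h1 : (u + 6 + d) - (u + 6) = d := by omega
  rw [h1]
  have h2 : 2 ^ (u + 6 + 1) = 128 * 2 ^ u := by ring
  rw [h2]
  have h3 : 2 * u ≤ 2 ^ u := two_mul_le_two_pow u hu
  have h4 : d + u ≤ d * u + 1 := by
    obtain ⟨d', rfl⟩ : ∃ d', d = d' + 1 := ⟨d - 1, by omega⟩
    obtain ⟨u', rfl⟩ : ∃ u', u = u' + 1 := ⟨u - 1, by omega⟩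
    nlinarith [Nat.zero_le (d' * u')]
  have h5 : d * (2 * u) ≤ d * 2 ^ u := Nat.mul_le_mul_left d h3
  have h6 : d * (128 * 2 ^ u) = 128 * (d * 2 ^ u) := by ring
  rw [h6]
  have h7 : d * (2 * u) = 2 * (d * u) := by ring
  omega

private theorem room' (ρ s : ℕ) (hρ : 16 ≤ ρ) (hs7 : 7 ≤ s) (hs : s + 1 ≤ ρ) :
    48 * (ρ + 1) + 1 + 4 ≤ 2 * ((ρ - s) * 2 ^ s) := by
  have h := stage_room ρ s hρ hs7 hs
  have h2 : (ρ - s) * 2 ^ (s + 1) = 2 * ((ρ - s) * 2 ^ s) := by ring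
  omega

theorem tS_pos (ρ s : ℕ) (hρ : 16 ≤ ρ) (hs7 : 7 ≤ s) (hs : s + 1 ≤ ρ) : 0 < tS ρ s := by
  have h := room' ρ s hρ hs7 hs
  unfold tS
  apply Nat.div_pos
  · omega
  · omega

theorem tS_hC1 (ρ s : ℕ) (hρ : 16 ≤ ρ) (hs7 : 7 ≤ s) (hs : s + 1 ≤ ρ) :
    tS ρ s * (48 * (ρ + 1) + 1) + 5 ≤ 4 * ((ρ - s) * 2 ^ s) := by
  have h := room' ρ s hρ hs7 hs
  have h1 : tS ρ s * (48 * (ρ + 1) + 1) ≤ 4 * ((ρ - s) * 2 ^ s) - 5 := by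
    unfold tS
    exact Nat.div_mul_le_self _ _
  omega

theorem tS_lower (ρ s : ℕ) (hρ : 16 ≤ ρ) (hs7 : 7 ≤ s) (hs : s + 1 ≤ ρ) :
    (ρ - s) * 2 ^ (s + 1) ≤ tS ρ s * (48 * (ρ + 1) + 1) := by
  have h := room' ρ s hρ hs7 hs
  have h2 : (ρ - s) * 2 ^ (s + 1) = 2 * ((ρ - s) * 2 ^ s) := by ring
  rw [h2]
  have hD : 0 < 48 * (ρ + 1) + 1 := by omega
  have h3 : 4 * ((ρ - s) * 2 ^ s) - 5 < (48 * (ρ + 1) + 1) * (tS ρ s + 1) := by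
    unfold tS
    exact Nat.lt_mul_div_succ _ hD
  have h4 : (48 * (ρ + 1) + 1) * (tS ρ s + 1)
      = tS ρ s * (48 * (ρ + 1) + 1) + (48 * (ρ + 1) + 1) := by ring
  omega

theorem tS_mul_gS (ρ s : ℕ) (hρ : 16 ≤ ρ) (hs7 : 7 ≤ s) (hs : s + 1 ≤ ρ) :
    2 ^ (s + 2) ≤ tS ρ s * gS ρ s := by
  have hpos := tS_pos ρ s hρ hs7 hs
  unfold gS
  exact (Nat.lt_mul_div_succ _ hpos).le

theorem gS_le (ρ s : ℕ) (hρ : 16 ≤ ρ) (hs7 : 7 ≤ s) (hs : s + 1 ≤ ρ) :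
    gS ρ s ≤ (96 * ρ + 98) / (ρ - s) + 1 := by
  have hpos := tS_pos ρ s hρ hs7 hs
  have hlow := tS_lower ρ s hρ hs7 hs
  have hd : 0 < ρ - s := by omega
  unfold gS
  apply Nat.add_le_add_right
  rw [Nat.le_div_iff_mul_le hd]
  have hq : 2 ^ (s + 2) / tS ρ s * tS ρ s ≤ 2 ^ (s + 2) := Nat.div_mul_le_self _ _
  set q := 2 ^ (s + 2) / tS ρ s with hqdef
  have hp : 0 < 2 ^ (s + 1) := by positivity
  have key : q * (ρ - s) * 2 ^ (s + 1) ≤ (96 * ρ + 98) * 2 ^ (s + 1) := by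
    calc q * (ρ - s) * 2 ^ (s + 1) = q * ((ρ - s) * 2 ^ (s + 1)) := by ring
      _ ≤ q * (tS ρ s * (48 * (ρ + 1) + 1)) := Nat.mul_le_mul_left q hlow
      _ = q * tS ρ s * (48 * (ρ + 1) + 1) := by ring
      _ ≤ 2 ^ (s + 2) * (48 * (ρ + 1) + 1) := Nat.mul_le_mul_right _ hq
      _ = (96 * ρ + 98) * 2 ^ (s + 1) := by ring
  exact Nat.le_of_mul_le_mul_right key hp

end Vale.Agent.Lib.P012
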